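import Vale.Agent.P272.K.AMP.Green2
import Vale.Agent.P272.K.INT.Gronwall

/-!
# The closedness identity

For a Kähler metric `g` and a closed `(1,1)`-form `w`: `∫ (tr_g w Δρ - <w, i∂∂̄ρ>) dv_g = 0`.
It is the coefficient of `s t` in `∫ det (g + s w + t i∂∂̄ρ)`.
-/

open scoped Manifold ContDiff ComplexOrder Topology
open Complex Set Filter MeasureTheory

set_option linter.all false

noncomputable section

namespace Vale.Agent.P272.K.AMP

open INT (IsDensity intX part Part IsPolyN IsClosedForm)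

variable {n : ℕ}

section linalg

/-- derivative of the inverse along a line, traced -/
lemma hasDerivAt_inv_trace {g w R : Matrix (Fin n) (Fin n) ℂ} (hg : IsUnit g.det) :
    HasDerivAt (fun s : ℝ => ((g + (s : ℂ) • w)⁻¹ * R).trace) (-(g⁻¹ * w * g⁻¹ * R).trace) 0 := by
  -- near `0` the determinant does not vanish
  have hdet : ContinuousAt (fun s : ℝ => (g + (s : ℂ) • w).det) 0 := by
    have : Continuous (fun s : ℝ => (g + (s : ℂ) • w).det) := by
      apply Continuous.matrix_det
      fun_prop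
    exact this.continuousAt
  have h0 : (g + ((0 : ℝ) : ℂ) • w).det ≠ 0 := by simpa using hg.ne_zero
  have hev : ∀ᶠ s : ℝ in 𝓝 0, (g + (s : ℂ) • w).det ≠ 0 := hdet.eventually_ne h0
  -- continuity of the inverse
  have hadj : Continuous (fun s : ℝ => (g + (s : ℂ) • w).adjugate) := by
    apply Continuous.matrix_adjugate
    fun_prop
  have hinv : ContinuousAt (fun s : ℝ => (g + (s : ℂ) • w)⁻¹) 0 := by
    have : (fun s : ℝ => (g + (s : ℂ) • w)⁻¹) = fun s : ℝ => ((g + (s : ℂ) • w).det)⁻¹ •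
        (g + (s : ℂ) • w).adjugate := by
      funext s; rw [Matrix.inv_def, Ring.inverse_eq_inv']
    rw [this]
    exact (hdet.inv₀ h0).smul hadj.continuousAt
  rw [hasDerivAt_iff_tendsto_slope]
  have hlim : Tendsto (fun s : ℝ => -((g + (s : ℂ) • w)⁻¹ * w * g⁻¹ * R).trace) (𝓝[≠] 0)
      (𝓝 (-(g⁻¹ * w * g⁻¹ * R).trace)) := by
    have h1 : ContinuousAt (fun s : ℝ => -((g + (s : ℂ) • w)⁻¹ * w * g⁻¹ * R).trace) 0 := by
      have h2 : Continuous (fun A : Matrix (Fin n) (Fin n) ℂ => -(A * w * g⁻¹ * R).trace) := by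
        fun_prop
      exact h2.continuousAt.comp hinv
    have h3 := h1.tendsto
    simp only [Complex.ofReal_zero, zero_smul, add_zero] at h3
    exact h3.mono_left nhdsWithin_le_nhds
  refine hlim.congr' ?_
  filter_upwards [nhdsWithin_le_nhds hev, self_mem_nhdsWithin] with s hs hs0
  have hs0' : (s : ℂ) ≠ 0 := by exact_mod_cast hs0
  set A := g + (s : ℂ) • w with hA
  have hAu : IsUnit A.det := isUnit_iff_ne_zero.2 hs
  have key : A⁻¹ - g⁻¹ = -((s : ℂ) • (A⁻¹ * w * g⁻¹)) := by
    have h1 : A⁻¹ * (A - g) * g⁻¹ = g⁻¹ - A⁻¹ := by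
      rw [Matrix.mul_sub, Matrix.sub_mul, Matrix.nonsing_inv_mul _ hAu, Matrix.one_mul,
        Matrix.mul_assoc, Matrix.mul_nonsing_inv _ hg, Matrix.mul_one]
    have h2 : A - g = (s : ℂ) • w := by rw [hA]; abel
    rw [h2, Matrix.mul_smul, Matrix.smul_mul] at h1
    rw [h1]; abel
  rw [slope_def_module]
  simp only [Complex.ofReal_zero, zero_smul, add_zero, sub_zero]
  rw [← Matrix.trace_sub, ← Matrix.sub_mul, ← hA, key, Matrix.neg_mul, Matrix.smul_mul,
    Matrix.trace_neg, Matrix.trace_smul, smul_eq_mul, Complex.real_smul, Complex.ofReal_inv]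
  field_simp

/-- `s`-derivative of `tr ((g+sw)⁻¹R) det (g+sw)` at `0` -/
lemma hasDerivAt_trace_det {g w R : Matrix (Fin n) (Fin n) ℂ} (hg : IsUnit g.det) :
    HasDerivAt (fun s : ℝ => ((g + (s : ℂ) • w)⁻¹ * R).trace * (g + (s : ℂ) • w).det)
      (((g⁻¹ * w).trace * (g⁻¹ * R).trace - (g⁻¹ * w * (g⁻¹ * R)).trace) * g.det) 0 := by
  have h1 := hasDerivAt_inv_trace (w := w) (R := R) hg
  have h2 : HasDerivAt (fun s : ℝ => (g + (s : ℂ) • w).det) ((g⁻¹ * w).trace * g.det) 0 := by
    have h0 : ∀ i j, HasDerivAt (fun t : ℝ => (g + (t : ℂ) • w) i j) (w i j) 0 := by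
      intro i j
      have : (fun t : ℝ => (g + (t : ℂ) • w) i j) = fun t : ℝ => g i j + (t : ℂ) * w i j := by
        ext t; simp
      rw [this]
      have h1 : HasDerivAt (fun t : ℝ => (t : ℂ)) 1 0 := Complex.ofRealCLM.hasDerivAt
      simpa using (h1.mul_const (w i j)).const_add (g i j)
    have h1 := (INT.hasFDerivAt_det fun i j => (h0 i j).hasFDerivAt)
    have h2 := h1.hasDerivAt
    have h3 : fderiv ℝ (fun t : ℝ => (g + (t : ℂ) • w).det) 0 1 =
        ∑ r, ((g + ((0 : ℝ) : ℂ) • w).updateRow r (w r)).det := by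
      rw [INT.fderiv_det fun i j => (h0 i j).differentiableAt]
      refine Finset.sum_congr rfl fun r _ => ?_
      congr 2
      ext l
      rw [fderiv_apply_one_eq_deriv, (h0 r l).deriv]
    rw [← h1.fderiv, h3] at h2
    simp only [Complex.ofReal_zero, zero_smul, add_zero] at h2
    rwa [INT.sum_det_updateRow hg] at h2
  have h3 := h1.mul h2
  simp only [Complex.ofReal_zero, zero_smul, add_zero] at h3
  refine h3.congr_deriv ?_
  rw [← Matrix.mul_assoc]
  ring

end linalg

section poly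

/-- a finite combination of polynomials is a polynomial -/
lemma IsPolyN.sum_mul {m : ℕ} {ι : Type*} (s : Finset ι) {f : ι → ℝ → ℝ} (c : ι → ℝ)
    (hf : ∀ i ∈ s, IsPolyN m (f i)) : IsPolyN m fun t => ∑ i ∈ s, c i * f i t := by
  classical
  induction s using Finset.induction_on with
  | empty => simpa using IsPolyN.const m 0
  | insert a s ha ih =>
    obtain ⟨b1, hb1⟩ := hf a (Finset.mem_insert_self a s)
    obtain ⟨b2, hb2⟩ := ih fun i hi => hf i (Finset.mem_insert_of_mem hi)
    refine ⟨fun k => c a * b1 k + b2 k, fun t => ?_⟩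
    have hb2' : ∑ i ∈ s, c i * f i t = ∑ k ∈ Finset.range (m + 1), b2 k * t ^ k := hb2 t
    simp only [Finset.sum_insert ha]
    rw [hb1 t, hb2', Finset.mul_sum, ← Finset.sum_add_distrib]
    exact Finset.sum_congr rfl fun k _ => by ring

end poly

section global

variable {X : Type*} [TopologicalSpace X] [ChartedSpace (Cm n) X]
  [IsManifold 𝓘(ℂ, Cm n) ω X] [T2Space X] [CompactSpace X]
  {g w : Chart n X → Cm n → Matrix (Fin n) (Fin n) ℂ} {ρ : X → ℝ}

/-- **The closedness identity.** -/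
theorem intX_closed (hg : IsKahler g) (hw : IsClosedForm w) (hρ : SmoothFn (n := n) ρ) :
    intX (fun e z => (((g e z)⁻¹ * w e z).trace * ((g e z)⁻¹ * hess ρ e z).trace -
      ((g e z)⁻¹ * w e z * ((g e z)⁻¹ * hess ρ e z)).trace).re * (g e z).det.re) = 0 := by
  have hgc : IsClosedForm g := INT.IsKahler.isClosedForm hg
  have hgw : ∀ s : ℝ, IsClosedForm fun e z => g e z + (s : ℂ) • w e z := fun s =>
    hgc.add (hw.smul (s : ℂ))
  have hρt : ∀ t : ℝ, SmoothFn (n := n) (fun x => t * ρ x) := fun t => sm_const_mul t hρ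
  -- `N s t = det (g + s w + t R)`
  set N : ℝ → ℝ → Chart n X → Cm n → ℝ := fun s t e z =>
    ((g e z + (s : ℂ) • w e z) + (t : ℂ) • hess ρ e z).det.re with hN
  have hR : IsClosedForm fun (e : Chart n X) z => hess ρ e z := INT.isClosedForm_cHess hρ
  have hD : ∀ s t, IsDensity (N s t) := fun s t => ((hgw s).add (hR.smul (t : ℂ))).isDensity
  have hconst : ∀ s t, intX (N s t) = intX (N s 0) := by
    intro s t
    have h1 := INT.intX_det_add_cHess (hgw s) (hρt t)
    have h2 : intX (N s t) = intX (fun e z => (g e z + (s : ℂ) • w e z +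
        cHess (fun y => t * ρ (e.symm y)) z).det.re) := by
      refine INT.intX_congr fun e x hx => ?_
      have : cHess (fun y => t * ρ (e.symm y)) (e x) = (t : ℂ) • hess ρ e (e x) :=
        cHess_const_mul t ((hρ e x hx).of_le (by exact WithTop.coe_le_coe.2 le_top))
      rw [this]
    have h3 : intX (N s 0) = intX (fun e z => (g e z + (s : ℂ) • w e z).det.re) := by
      refine INT.intX_congr fun e x hx => ?_
      simp [hN]
    rw [h2, h1, h3]
  -- first derivative in `t`
  set D1 : ℝ → Chart n X → Cm n → ℝ := fun s e z =>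
    ∑ j : Fin (n + 1), deriv (INT.lag n j) 0 * N s (j : ℝ) e z with hD1
  have hD1d : ∀ s, IsDensity (D1 s) := fun s =>
    IsDensity.sum Finset.univ fun j _ => (hD s (j : ℝ)).const_mul _
  have hD1int : ∀ s, intX (D1 s) = 0 := by
    intro s
    have h1 : intX (D1 s) = ∑ j : Fin (n + 1), deriv (INT.lag n j) 0 * intX (N s (j : ℝ)) := by
      rw [hD1]
      show intX (fun e z => ∑ j : Fin (n + 1), deriv (INT.lag n j) 0 * N s (j : ℝ) e z) = _
      have hj : ∀ j : Fin (n + 1), IsDensity fun e z => deriv (INT.lag n j) 0 * N s (j : ℝ) e z :=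
        fun j => (hD s (j : ℝ)).const_mul _
      rw [INT.intX_sum Finset.univ fun j _ => hj j]
      exact Finset.sum_congr rfl fun j _ => INT.intX_const_mul _ _
    rw [h1]
    simp only [hconst s]
    rw [← Finset.sum_mul, INT.sum_deriv_lag, zero_mul]
  have hD1eq : ∀ s e x, At e x → D1 s e (e x) =
      (∑ r, ((g e (e x) + (s : ℂ) • w e (e x)).updateRow r (hess ρ e (e x) r)).det).re := by
    intro s e x hx
    have h1 := (INT.isPolyN_det (g e (e x) + (s : ℂ) • w e (e x)) (hess ρ e (e x))).deriv 0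
    have h2 := (INT.hasDerivAt_det_line (g e (e x) + (s : ℂ) • w e (e x)) (hess ρ e (e x)) 0).deriv
    rw [h2] at h1
    simp only [Complex.ofReal_zero, zero_smul, add_zero] at h1
    rw [h1]
  -- second derivative in `s`
  have hD1poly : ∀ e x, At e x → IsPolyN n fun s => D1 s e (e x) := by
    intro e x hx
    refine IsPolyN.sum_mul (ι := Fin (n + 1)) Finset.univ (fun j => deriv (INT.lag n j) 0)
      (f := fun j s => N s (((j : ℕ) : ℝ)) e (e x)) fun j _ => ?_
    have h1 := INT.isPolyN_det (g e (e x) + ((((j : ℕ) : ℝ)) : ℂ) • hess ρ e (e x)) (w e (e x))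
    obtain ⟨a, ha⟩ := h1
    refine ⟨a, fun t => ?_⟩
    rw [← ha t]
    simp only [hN]
    congr 2
    abel
  have hder := INT.hasDerivAt_intX (m := n) (D := D1) hD1d hD1poly 0
  have hzero : (fun s => intX (D1 s)) = fun _ => 0 := funext hD1int
  rw [hzero] at hder
  have h0 := hder.unique (hasDerivAt_const (0 : ℝ) (0 : ℝ))
  rw [← h0]
  refine INT.intX_congr fun e x hx => ?_
  -- compute the derivative
  have hpd := hg.posDef e x hx
  have hu : IsUnit (g e (e x)).det := isUnit_iff_ne_zero.2 hpd.det_pos.ne'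
  have hkey := hasDerivAt_trace_det (w := w e (e x)) (R := hess ρ e (e x)) hu
  have hev : (fun s : ℝ => D1 s e (e x)) =ᶠ[𝓝 0] fun s : ℝ =>
      (((g e (e x) + (s : ℂ) • w e (e x))⁻¹ * hess ρ e (e x)).trace *
        (g e (e x) + (s : ℂ) • w e (e x)).det).re := by
    have hdet : ContinuousAt (fun s : ℝ => (g e (e x) + (s : ℂ) • w e (e x)).det) 0 := by
      have : Continuous (fun s : ℝ => (g e (e x) + (s : ℂ) • w e (e x)).det) := by
        apply Continuous.matrix_det
        fun_prop
      exact this.continuousAt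
    have h0 : (g e (e x) + ((0 : ℝ) : ℂ) • w e (e x)).det ≠ 0 := by simpa using hu.ne_zero
    filter_upwards [hdet.eventually_ne h0] with s hs
    rw [hD1eq s e x hx, INT.sum_det_updateRow (isUnit_iff_ne_zero.2 hs)]
  have h5 : HasDerivAt (fun s : ℝ => D1 s e (e x)) _ 0 :=
    (Complex.reCLM.hasFDerivAt.comp_hasDerivAt (0 : ℝ) hkey).congr_of_eventuallyEq hev
  rw [h5.deriv]
  have hre : (g e (e x)).det = (((g e (e x)).det.re : ℝ) : ℂ) := (C2.det_re_eq hpd).symm
  simp only [Complex.reCLM_apply]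
  rw [hre, Complex.re_mul_ofReal, Complex.ofReal_re]

end global

end Vale.Agent.P272.K.AMP
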