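import Vale.Agent.P272.K.P1.WeakForm
import Vale.Agent.P272.K.Asm.Phase1
import Vale.Agent.P272.K.INT.Global

/-!
# The weighted double divergence inequality

For a Kähler metric `g` with `Ric(g) ≥ -g`, a Hermitian metric `h` of holomorphic sectional
curvature `≤ -k` and a smooth function `ρ ≥ 0`:
`∫ ρ (k T² - 2T) dv_g ≤ ∫ (T Δρ + <h, i∂∂̄ρ>) dv_g`, `T = tr_g h`.
-/

open scoped Manifold ContDiff ComplexOrder Topology
open Complex Set Filter MeasureTheory

set_option linter.all false

noncomputable section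

namespace Vale.Agent.P272.K.AMP

open INT (IsDensity intX part Part)

variable {n : ℕ} {X : Type*} [TopologicalSpace X] [ChartedSpace (Cm n) X]
  [IsManifold 𝓘(ℂ, Cm n) ω X] [T2Space X] [CompactSpace X]

theorem intX_ineq_weighted
    {g h : Chart n X → Cm n → Matrix (Fin n) (Fin n) ℂ} (hg : IsKahler g) (hh : IsHermitian h)
    (hric : ∀ e x, At e x →
      (-cHess (fun z => Real.log (g e z).det.re) (e x) + g e (e x)).PosSemidef)
    {k : ℝ} (hk : 0 ≤ k)
    (hHSC : ∀ i, ∀ z ∈ (part n X).e i '' tsupport ((part n X).ρ i), ∀ ξ : Cm n,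
      (quart (curv (h ((part n X).e i)) z) ξ).re ≤ -k * (quad (h ((part n X).e i) z) ξ).re ^ 2)
    {ρ : X → ℝ} (hρ : SmoothFn (n := n) ρ) (hρ0 : ∀ x, 0 ≤ ρ x) :
    intX (fun e z => ρ (e.symm z) * ((k * ((g e z)⁻¹ * h e z).trace.re ^ 2
      - 2 * ((g e z)⁻¹ * h e z).trace.re) * (g e z).det.re)) ≤ intX (Qd g h ρ) := by
  set P := part n X with hP
  have hgH : IsHermitian g := hg.toIsHermitian
  have hPρ : ∀ i, SmoothFn (n := n) (fun x => P.ρ i x * ρ x) := fun i =>
    INT.SmoothFn.mul (P.smooth i) hρ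
  have hsupp : ∀ i, tsupport (fun x => P.ρ i x * ρ x) ⊆ (P.e i).source := fun i =>
    INT.tsupport_mul_subset_left'.trans (P.supp i)
  have hnn : ∀ i x, 0 ≤ P.ρ i x * ρ x := fun i x => mul_nonneg (P.nonneg i x) (hρ0 x)
  -- the right hand side
  have hsum : intX (fun e z => ∑ i : Fin P.N, Qd g h (fun x => P.ρ i x * ρ x) e z) =
      intX (Qd g h ρ) := by
    refine INT.intX_congr fun e x hx => ?_
    have h0 : ∑ i : Fin P.N, cHess (fun y => P.ρ i (e.symm y) * ρ (e.symm y)) (e x) =
        cHess (fun y => ρ (e.symm y)) (e x) := by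
      rw [← cHess_sum]
      · have : (fun y => ∑ i : Fin P.N, P.ρ i (e.symm y) * ρ (e.symm y)) =
            fun y => ρ (e.symm y) := by
          funext y; rw [← Finset.sum_mul, P.sum, one_mul]
        rw [this]
      · intro i _
        exact (hPρ i e x hx).of_le (by exact WithTop.coe_le_coe.2 le_top)
    unfold Qd
    rw [← Finset.sum_mul, Finset.sum_add_distrib, ← Finset.mul_sum]
    have h1 : ∑ i : Fin P.N, ((g e (e x))⁻¹ * cHess (fun y => P.ρ i (e.symm y) *
        ρ (e.symm y)) (e x)).trace.re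
        = ((g e (e x))⁻¹ * cHess (fun y => ρ (e.symm y)) (e x)).trace.re := by
      rw [← Complex.re_sum, ← Matrix.trace_sum, ← Matrix.mul_sum, h0]
    have h2 : ∑ i : Fin P.N, ((g e (e x))⁻¹ * h e (e x) *
        ((g e (e x))⁻¹ * cHess (fun y => P.ρ i (e.symm y) * ρ (e.symm y)) (e x))).trace.re =
        ((g e (e x))⁻¹ * h e (e x) *
        ((g e (e x))⁻¹ * cHess (fun y => ρ (e.symm y)) (e x))).trace.re := by
      rw [← Complex.re_sum, ← Matrix.trace_sum, ← Matrix.mul_sum, ← Matrix.mul_sum, h0]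
    rw [h1, h2]
  have hi : ∀ i : Fin P.N, intX (Qd g h (fun x => P.ρ i x * ρ x)) =
      ∫ z in (P.e i).target, Qd g h (fun x => P.ρ i x * ρ x) (P.e i) z := by
    intro i
    refine INT.intX_of_support (isDensity_Qd hgH hh (hPρ i)) (P.mem i)
      (isClosed_tsupport (fun x => P.ρ i x * ρ x)) (hsupp i) ?_
    intro e' x hx hxK
    have h1 : (fun y => P.ρ i (e'.symm y) * ρ (e'.symm y)) =ᶠ[𝓝 (e' x)] fun _ => 0 := by
      have h2 : ∀ᶠ y in 𝓝 x, P.ρ i y * ρ y = 0 := by
        filter_upwards [(isClosed_tsupport (fun x => P.ρ i x * ρ x)).isOpen_compl.mem_nhds hxK]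
          with y hy
        exact image_eq_zero_of_notMem_tsupport (f := fun x => P.ρ i x * ρ x) hy
      have h3 : Tendsto e'.symm (𝓝 (e' x)) (𝓝 x) := by
        have := e'.continuousAt_symm (e'.map_source hx.2)
        rw [ContinuousAt, e'.left_inv hx.2] at this
        exact this
      exact h3.eventually h2
    unfold Qd
    rw [cHess_congr h1, cHess_const]
    simp
  have hchart : ∀ i : Fin P.N,
      ∫ z in (P.e i).target, P.ρ i ((P.e i).symm z) * (ρ ((P.e i).symm z) *
        ((k * ((g (P.e i) z)⁻¹ * h (P.e i) z).trace.re ^ 2 -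
          2 * ((g (P.e i) z)⁻¹ * h (P.e i) z).trace.re) * (g (P.e i) z).det.re))
      ≤ ∫ z in (P.e i).target, Qd g h (fun x => P.ρ i x * ρ x) (P.e i) z := by
    intro i
    have hmem := P.mem i
    have hsm : ∀ z ∈ (P.e i).target, At (P.e i) ((P.e i).symm z) := fun z hz => At.of_target hmem hz
    have key := P1.weakForm n (P.e i).target (g (P.e i)) (h (P.e i))
      (cutZ (P.e i) (fun x => P.ρ i x * ρ x)) k
      (P.e i).open_target (fun z hz a b => hgH.smooth_target hmem hz a b)
      (fun z hz a b => hh.smooth_target hmem hz a b)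
      (fun z hz => hgH.posDef_target hmem hz) (fun z hz => hh.posDef_target hmem hz)
      (fun z hz a b l => by
        have := hg.closed (P.e i) _ (hsm z hz) a b l
        rwa [(P.e i).right_inv hz] at this)
      (fun z hz => by
        have := hric (P.e i) _ (hsm z hz)
        rwa [(P.e i).right_inv hz] at this)
      (contDiff_cutZ hmem (hPρ i) (hsupp i)) (hasCompactSupport_cutZ (hsupp i))
      ((tsupport_cutZ (hsupp i)).trans (image_tsupport_subset (hsupp i)))
      (cutZ_nonneg (hnn i)) hk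
      (fun z hz ξ => hHSC i z (by
        obtain ⟨x, hx, rfl⟩ := tsupport_cutZ (hsupp i) hz
        exact ⟨x, INT.tsupport_mul_subset_left' hx, rfl⟩) ξ)
    have e1 : ∫ z in (P.e i).target, P.ρ i ((P.e i).symm z) * (ρ ((P.e i).symm z) *
        ((k * ((g (P.e i) z)⁻¹ * h (P.e i) z).trace.re ^ 2 -
          2 * ((g (P.e i) z)⁻¹ * h (P.e i) z).trace.re) * (g (P.e i) z).det.re)) =
        ∫ z in (P.e i).target, cutZ (P.e i) (fun x => P.ρ i x * ρ x) z *
        ((k * ((g (P.e i) z)⁻¹ * h (P.e i) z).trace.re ^ 2 -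
          2 * ((g (P.e i) z)⁻¹ * h (P.e i) z).trace.re) * (g (P.e i) z).det.re) := by
      refine setIntegral_congr_fun (P.e i).open_target.measurableSet fun z hz => ?_
      simp only [cutZ_of_mem hz]
      ring
    have e2 : ∫ z in (P.e i).target, Qd g h (fun x => P.ρ i x * ρ x) (P.e i) z =
        ∫ z in (P.e i).target, (((g (P.e i) z)⁻¹ * h (P.e i) z).trace.re *
          ((g (P.e i) z)⁻¹ * cHess (cutZ (P.e i) (fun x => P.ρ i x * ρ x)) z).trace.re +
          ((g (P.e i) z)⁻¹ * h (P.e i) z *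
            ((g (P.e i) z)⁻¹ * cHess (cutZ (P.e i) (fun x => P.ρ i x * ρ x)) z)).trace.re) *
          (g (P.e i) z).det.re := by
      refine setIntegral_congr_fun (P.e i).open_target.measurableSet fun z hz => ?_
      simp only [Qd, cHess_congr (cutZ_eventuallyEq (ρ := fun x => P.ρ i x * ρ x) hz)]
    rw [e1, e2]
    exact key
  calc intX (fun e z => ρ (e.symm z) * ((k * ((g e z)⁻¹ * h e z).trace.re ^ 2 -
        2 * ((g e z)⁻¹ * h e z).trace.re) * (g e z).det.re))
      ≤ ∑ i : Fin P.N, ∫ z in (P.e i).target, Qd g h (fun x => P.ρ i x * ρ x) (P.e i) z :=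
        Finset.sum_le_sum fun i _ => hchart i
    _ = ∑ i : Fin P.N, intX (Qd g h (fun x => P.ρ i x * ρ x)) :=
        Finset.sum_congr rfl fun i _ => (hi i).symm
    _ = intX (fun e z => ∑ i : Fin P.N, Qd g h (fun x => P.ρ i x * ρ x) e z) :=
        (INT.intX_sum Finset.univ fun i _ => isDensity_Qd hgH hh (hPρ i)).symm
    _ = _ := hsum

end Vale.Agent.P272.K.AMP
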