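import Vale.Agent.P272.K.AMP.DD.Point
import Vale.Agent.P272.K.AMP.DD.Closed
import Vale.Agent.P272.K.AMP.DD.Weighted
import Vale.Agent.P272.K.AMP.QH.Defs
import Vale.Agent.P272.K.AMP.Calc

/-!
# Steps 5 and 6: the weighted integral estimate of the trace
-/

open scoped Manifold ContDiff ComplexOrder Topology
open Complex Set Filter MeasureTheory

set_option linter.all false

noncomputable section

namespace Vale.Agent.P272.K.AMP.DD

open INT (IsDensity intX part Part IsClosedForm)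

section calculus

lemma hasDerivAt_inv_pow (m : ℕ) {s : ℝ} (hs : s ≠ 0) :
    HasDerivAt (fun s : ℝ => (s⁻¹) ^ m) (-(m : ℝ) * (s⁻¹) ^ (m + 1)) s := by
  have h := (hasDerivAt_inv hs).pow m
  refine h.congr_deriv ?_
  rcases m with _ | m
  · simp
  · simp only [Nat.add_sub_cancel]
    rw [pow_succ (s⁻¹) (m + 1), pow_succ (s⁻¹) m, ← inv_pow]
    ring

end calculus

variable {n : ℕ} {X : Type*} [TopologicalSpace X] [ChartedSpace (Cm n) X]
  [IsManifold 𝓘(ℂ, Cm n) ω X]
  {g w h : Chart n X → Cm n → Matrix (Fin n) (Fin n) ℂ} {B : X → ℝ}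

lemma sm_inv_pow (hB : SmoothFn (n := n) B) (h0 : ∀ x, 0 < B x) (m : ℕ) :
    SmoothFn (n := n) (fun x => ((B x)⁻¹) ^ m) := fun e x hx =>
  ((hB e x hx).inv (h0 _).ne').pow m

/-- the Hessian of `ρ = B^{-(n-2)}` -/
lemma hess_rho (hn : 2 ≤ n) (hB : SmoothFn (n := n) B) (h0 : ∀ x, 0 < B x) {e : Chart n X} {x : X}
    (hx : At e x) : hess (fun y => ((B y)⁻¹) ^ (n - 2)) e (e x) =
      ((-(((n : ℝ) - 2) * (((B x)⁻¹) ^ (n - 2) * (B x)⁻¹)) : ℝ) : ℂ) •
        (Hf g B e (e x) + ((Qf g B x : ℝ) : ℂ) • g e (e x)) +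
      (((((n : ℝ) - 2) * ((n : ℝ) - 1) * (((B x)⁻¹) ^ (n - 2) * (B x)⁻¹ ^ 2)) : ℝ) : ℂ) •
        dd B B e (e x) := by
  have hxx : e.symm (e x) = x := e.left_inv hx.2
  have hHf : Hf g B e (e x) + ((Qf g B x : ℝ) : ℂ) • g e (e x) = hess B e (e x) := by
    unfold Hf; rw [hxx]; abel
  have hcast : ((n - 2 : ℕ) : ℝ) = (n : ℝ) - 2 := by rw [Nat.cast_sub hn]; norm_num
  rw [hHf]
  ext i j
  have hBx : B (e.symm (e x)) ≠ 0 := (h0 _).ne'
  have h := C2.cHess_comp (ψ := fun s : ℝ => (s⁻¹) ^ (n - 2))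
    (ψ₁ := fun s : ℝ => -((n - 2 : ℕ) : ℝ) * (s⁻¹) ^ (n - 2 + 1))
    (ψ₂ := -((n - 2 : ℕ) : ℝ) * (-((n - 2 + 1 : ℕ) : ℝ) * ((B (e.symm (e x)))⁻¹) ^ (n - 2 + 1 + 1)))
    (u := fun z => B (e.symm z)) (z := e x)
    (by
      filter_upwards [isOpen_ne.mem_nhds hBx] with s hs
      exact hasDerivAt_inv_pow _ hs)
    ((hasDerivAt_inv_pow _ hBx).const_mul _)
    ((hB e x hx).of_le (by norm_cast)) i j
  simp only [hxx] at h
  have e1 : hess (fun y => ((B y)⁻¹) ^ (n - 2)) e (e x) i j =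
      cHess (fun y => ((B (e.symm y))⁻¹) ^ (n - 2)) (e x) i j := rfl
  rw [e1, h, Matrix.add_apply, Matrix.smul_apply, Matrix.smul_apply, smul_eq_mul, smul_eq_mul]
  have c1 : ((-((n - 2 : ℕ) : ℝ) * ((B x)⁻¹) ^ (n - 2 + 1) : ℝ) : ℂ) =
      ((-(((n : ℝ) - 2) * (((B x)⁻¹) ^ (n - 2) * (B x)⁻¹)) : ℝ) : ℂ) := by
    congr 1
    rw [hcast, pow_succ]; ring
  have c2 : ((-((n - 2 : ℕ) : ℝ) * (-((n - 2 + 1 : ℕ) : ℝ) * ((B x)⁻¹) ^ (n - 2 + 1 + 1)) : ℝ) : ℂ) =
      (((((n : ℝ) - 2) * ((n : ℝ) - 1) * (((B x)⁻¹) ^ (n - 2) * (B x)⁻¹ ^ 2)) : ℝ) : ℂ) := by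
    congr 1
    rw [Nat.cast_add, hcast, pow_succ, pow_succ]
    push_cast; ring
  rw [c1, c2]
  rfl

lemma isForm_Hf (hg : IsHermitian g) (hB : SmoothFn (n := n) B) : IsForm (Hf g B) := by
  intro e e' x hx hx'
  unfold Hf
  rw [e.left_inv hx.2, e'.left_inv hx'.2, isForm_hess hB e e' x hx hx', hg.isForm e e' x hx hx',
    Matrix.mul_sub, Matrix.sub_mul, Matrix.mul_smul, Matrix.smul_mul]

lemma smooth_Qf (hg : IsHermitian g) (hB : SmoothFn (n := n) B) (h0 : ∀ x, 0 < B x) :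
    SmoothFn (n := n) (Qf g B) :=
  sm_div (smoothFn_gradX hg hB hB) hB fun x => (h0 x).ne'

lemma smooth_Hf (hg : IsHermitian g) (hB : SmoothFn (n := n) B) (h0 : ∀ x, 0 < B x)
    (e : Chart n X) (x : X) (hx : At e x) (i j : Fin n) :
    ContDiffAt ℝ ∞ (fun y => Hf g B e y i j) (e x) :=
  (contDiffAt_hess hB hx i j).sub
    ((ofReal_symm_contDiffAt (smooth_Qf hg hB h0) hx).mul (hg.smooth e x hx i j))

lemma isDensity_sq (hg : IsHermitian g) (hB : SmoothFn (n := n) B) (h0 : ∀ x, 0 < B x) :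
    IsDensity (fun (e : Chart n X) z => ((B (e.symm z))⁻¹) ^ n * sqE g (Hf g B) e z *
      (g e z).det.re) where
  cont e x hx := by
    have hgi : ∀ i j, ContDiffAt ℝ ∞ (fun y => (g e y)⁻¹ i j) (e x) :=
      fun i j => contDiffAt_inv (hg.smooth e x hx) (hg.det_ne_zero hx) i j
    have hH := smooth_Hf hg hB h0 e x hx
    have h3 := contDiffAt_trace_mul (contDiffAt_mul_entry hgi hH) (contDiffAt_mul_entry hgi hH)
    have h4 := contDiffAt_det (hg.smooth e x hx)
    exact ((((hB e x hx).inv (h0 _).ne').pow n).mul (contDiffAt_re h3)).continuousAt.mul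
      (contDiffAt_re h4).continuousAt
  change e e' x hx hx' := by
    unfold sqE
    rw [e.left_inv hx.2, e'.left_inv hx'.2,
      trace_inv2 hg.isForm (isForm_Hf hg hB) (isForm_Hf hg hB) hx hx', det_form_re hg.isForm hx hx']
    ring

/-- the closedness density -/
def W1 (g w : Chart n X → Cm n → Matrix (Fin n) (Fin n) ℂ) (ρ : X → ℝ) (e : Chart n X) (z : Cm n) :
    ℝ := (((g e z)⁻¹ * w e z).trace * ((g e z)⁻¹ * hess ρ e z).trace -
      ((g e z)⁻¹ * w e z * ((g e z)⁻¹ * hess ρ e z)).trace).re * (g e z).det.re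

lemma isDensity_W1 (hg : IsHermitian g) (hw : IsHermitian w) {ρ : X → ℝ}
    (hρ : SmoothFn (n := n) ρ) : IsDensity (W1 g w ρ) where
  cont e x hx := by
    have hgi : ∀ i j, ContDiffAt ℝ ∞ (fun y => (g e y)⁻¹ i j) (e x) :=
      fun i j => contDiffAt_inv (hg.smooth e x hx) (hg.det_ne_zero hx) i j
    have hH := fun i j => contDiffAt_hess hρ hx i j
    have h1 := contDiffAt_trace_mul hgi (hw.smooth e x hx)
    have h2 := contDiffAt_trace_mul hgi hH
    have h3 := contDiffAt_trace_mul (contDiffAt_mul_entry hgi (hw.smooth e x hx))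
      (contDiffAt_mul_entry hgi hH)
    have h4 := contDiffAt_det (hg.smooth e x hx)
    exact (contDiffAt_re ((h1.mul h2).sub h3)).continuousAt.mul (contDiffAt_re h4).continuousAt
  change e e' x hx hx' := by
    unfold W1
    rw [trace_inv2 hg.isForm hw.isForm (isForm_hess hρ) hx hx',
      trace_inv hg.isForm hw.isForm hx hx', trace_inv hg.isForm (isForm_hess hρ) hx hx',
      det_form_re hg.isForm hx hx']
    ring

lemma dd_self_posSemidef (u : X → ℝ) (e : Chart n X) (z : Cm n) : (dd u u e z).PosSemidef := by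
  rw [dd_eq_gm]
  exact gm_self_posSemidef _ _

variable [T2Space X] [CompactSpace X]

/-- **Steps 5 and 6.** -/
theorem main (hn : 2 ≤ n) (hw : IsKahler w) (hh : IsHermitian h) (hneg : NegHSC h) :
    ∃ C : ℝ, 0 < C ∧ ∀ g : Chart n X → Cm n → Matrix (Fin n) (Fin n) ℂ, IsKahler g →
      (∀ e x, At e x → (-cHess (fun z => Real.log (g e z).det.re) (e x) + g e (e x)).PosSemidef) →
      ∀ B : X → ℝ, SmoothFn (n := n) B → (∀ x, 0 < B x) → (∀ x, B x ≤ 1) →
      IX g (fun x => ((B x)⁻¹) ^ (n - 2) * (trX g w x) ^ 2) ≤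
        C * (IX g (fun x => ((B x)⁻¹) ^ (n - 1)) +
          intX (fun (e : Chart n X) z => ((B (e.symm z))⁻¹) ^ n * sqE g (Hf g B) e z *
            (g e z).det.re)) := by
  obtain ⟨k, hk, hHSC⟩ := exists_HSC_bound hh hneg (part n X).e (part n X).mem
    (fun i => (part n X).e i '' tsupport ((part n X).ρ i))
    (fun i => isCompact_image_tsupport ((part n X).supp i))
    (fun i => image_tsupport_subset ((part n X).supp i))
  obtain ⟨Cw, hCw0, hCw⟩ := exists_comparison hh hw.toIsHermitian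
  obtain ⟨Ch, hCh0, hCh⟩ := exists_comparison hw.toIsHermitian hh
  have hn2 : (0 : ℝ) ≤ (n : ℝ) - 2 := by
    have : (2 : ℝ) ≤ n := by exact_mod_cast hn
    linarith
  set K : ℝ := (n : ℝ) - 2 with hK
  set c0 : ℝ := ((n : ℝ) + 1) * (1 + Ch * Cw ^ 2) with hc0
  have hc0p : 0 < c0 := by positivity
  set ε : ℝ := k / (2 * (K + 1) * c0) with hε
  have hε0 : 0 < ε := by positivity
  set C1 : ℝ := K / 2 * ((2 + 2 * Ch) * ε⁻¹) with hC1
  have hC10 : 0 ≤ C1 := by positivity
  refine ⟨2 * Cw ^ 2 / k * (4 / k + C1) + 1, by positivity, ?_⟩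
  intro g hg hric B hB hB0 hB1
  have hgH := hg.toIsHermitian
  set ρ : X → ℝ := fun x => ((B x)⁻¹) ^ (n - 2) with hρdef
  have hρ : SmoothFn (n := n) ρ := sm_inv_pow hB hB0 (n - 2)
  have hρ0 : ∀ x, 0 ≤ ρ x := fun x => by
    have := hB0 x
    positivity
  have hρc : Continuous ρ := INT.SmoothFn.continuous hρ
  have hT : SmoothFn (n := n) (trX g h) := smoothFn_trX hgH hh.isForm hh.smooth
  have hTw : SmoothFn (n := n) (trX g w) := smoothFn_trX hgH hw.isForm hw.smooth
  have hTc := INT.SmoothFn.continuous hT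
  have hTwc := INT.SmoothFn.continuous hTw
  set DH : Chart n X → Cm n → ℝ := fun e z => ((B (e.symm z))⁻¹) ^ n * sqE g (Hf g B) e z *
    (g e z).det.re with hDH
  have hDHd : IsDensity DH := isDensity_sq hgH hB hB0
  have hQdd : IsDensity (Qd g h ρ) := isDensity_Qd hgH hh hρ
  have hW1d : IsDensity (W1 g w ρ) := isDensity_W1 hgH hw.toIsHermitian hρ
  have hρT : Continuous fun x => ρ x * trX g h x ^ 2 := hρc.mul (hTc.pow 2)
  -- the pointwise estimate
  have hpt : ∀ e x, At e x → Qd g h ρ e (e x) + Ch * W1 g w ρ e (e x) ≤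
      k / 4 * ((fun x => ρ x * trX g h x ^ 2) (e.symm (e x)) * (g e (e x)).det.re) +
        C1 * DH e (e x) := by
    intro e x hx
    have hxx : e.symm (e x) = x := e.left_inv hx.2
    have hG := hgH.posDef e x hx
    have hBx := hB0 x
    have hq0 : 0 ≤ Qf g B x := div_nonneg (gradX_self_nonneg hgH.posDef B x) hBx.le
    have hHess : (hess ρ e (e x)).IsHermitian :=
      cHess_isHermitian ((hρ e x hx).of_le (by norm_cast))
    have hHfH : (Hf g B e (e x)).IsHermitian := by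
      unfold Hf
      refine Matrix.IsHermitian.sub (cHess_isHermitian ((hB e x hx).of_le (by norm_cast))) ?_
      exact hG.isHermitian.smul (by simp only [IsSelfAdjoint, Complex.star_def, Complex.conj_ofReal])
    have key := point (G := g e (e x)) (h := h e (e x)) (w := w e (e x)) (D := dd B B e (e x))
      (H := Hf g B e (e x)) (R := hess ρ e (e x)) (k := k) (Cw := Cw) (Ch := Ch)
      (r := (B x)⁻¹) (q := Qf g B x) (ρ := ρ x) (ρ1 := ρ x * (B x)⁻¹) (ρ2 := ρ x * (B x)⁻¹ ^ 2)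
      (ε := ε) hn hG (hh.posDef e x hx).posSemidef (hw.posDef e x hx).posSemidef
      (dd_self_posSemidef B e (e x)) hHfH hCh0.le hCw0.le (hCh e x hx) (hCw e x hx)
      (inv_pos.2 hBx) (hρ0 x) rfl rfl
      (by
        have h1 := gradX_eq hgH hB hB hx
        show gradE g B B e (e x) = _
        rw [← h1, Qf]
        field_simp)
      hq0 hε0 (hess_rho hn hB hB0 hx)
    have hdet : 0 < (g e (e x)).det.re := (Complex.lt_def.1 hG.det_pos).1
    have eQ : Qd g h ρ e (e x) = (tr (g e (e x)) (h e (e x)) * tr (g e (e x)) (hess ρ e (e x)) +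
        pr (g e (e x)) (h e (e x)) (hess ρ e (e x))) * (g e (e x)).det.re := rfl
    have eW : W1 g w ρ e (e x) = (tr (g e (e x)) (w e (e x)) * tr (g e (e x)) (hess ρ e (e x)) -
        pr (g e (e x)) (w e (e x)) (hess ρ e (e x))) * (g e (e x)).det.re := by
      unfold W1
      rw [trace_real hG (hw.posDef e x hx).isHermitian, trace_real hG hHess, Complex.sub_re,
        ← Complex.ofReal_mul, Complex.ofReal_re]
      rfl
    have eT : trX g h x = tr (g e (e x)) (h e (e x)) := trX_eq hgH hh.isForm hx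
    have eD : DH e (e x) = (ρ x * (B x)⁻¹ ^ 2) * pr (g e (e x)) (Hf g B e (e x))
        (Hf g B e (e x)) * (g e (e x)).det.re := by
      simp only [hDH, hxx, hρdef]
      rw [← pow_add, Nat.sub_add_cancel hn]
      rfl
    rw [eQ, eW, eD]
    simp only [hxx]
    rw [eT]
    have k1 := mul_le_mul_of_nonneg_right key hdet.le
    have k2 : K / 2 * (ε * (n + 1) * (1 + Ch * Cw ^ 2) * (ρ x * tr (g e (e x)) (h e (e x)) ^ 2)) ≤
        k / 4 * (ρ x * tr (g e (e x)) (h e (e x)) ^ 2) := by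
      have : K / 2 * (ε * c0) ≤ k / 4 := by
        rw [hε]
        have : K / 2 * (k / (2 * (K + 1) * c0) * c0) = k / 4 * (K / (K + 1)) := by
          field_simp
          ring
        rw [this]
        have h1 : K / (K + 1) ≤ 1 := by
          rw [div_le_one (by positivity)]; linarith
        nlinarith
      have h2 : 0 ≤ ρ x * tr (g e (e x)) (h e (e x)) ^ 2 := mul_nonneg (hρ0 x) (sq_nonneg _)
      have h3 := mul_le_mul_of_nonneg_right this h2
      calc _ = K / 2 * (ε * c0) * (ρ x * tr (g e (e x)) (h e (e x)) ^ 2) := by rw [hc0]; ring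
        _ ≤ _ := h3
    have k3 := mul_le_mul_of_nonneg_right k2 hdet.le
    calc _ = ((tr (g e (e x)) (h e (e x)) * tr (g e (e x)) (hess ρ e (e x)) +
            pr (g e (e x)) (h e (e x)) (hess ρ e (e x))) +
          Ch * (tr (g e (e x)) (w e (e x)) * tr (g e (e x)) (hess ρ e (e x)) -
            pr (g e (e x)) (w e (e x)) (hess ρ e (e x)))) * (g e (e x)).det.re := by ring
      _ ≤ _ := k1
      _ = K / 2 * (ε * (n + 1) * (1 + Ch * Cw ^ 2) * (ρ x * tr (g e (e x)) (h e (e x)) ^ 2)) *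
            (g e (e x)).det.re +
          C1 * (ρ x * (B x)⁻¹ ^ 2 * pr (g e (e x)) (Hf g B e (e x)) (Hf g B e (e x)) *
            (g e (e x)).det.re) := by rw [hC1]; ring
      _ ≤ _ := by linarith
  -- integrate
  have hdI : IsDensity (fun (e : Chart n X) z =>
      (fun x => ρ x * trX g h x ^ 2) (e.symm z) * (g e z).det.re) := isDensity_IX hgH hρT
  have i1 : intX (Qd g h ρ) ≤ k / 4 * IX g (fun x => ρ x * trX g h x ^ 2) + C1 * intX DH := by
    have a1 := INT.intX_mono (hQdd.add (hW1d.const_mul Ch)) ((hdI.const_mul (k / 4)).add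
      (hDHd.const_mul C1)) hpt
    rw [INT.intX_add hQdd (hW1d.const_mul Ch), INT.intX_const_mul, INT.intX_add
      (hdI.const_mul (k / 4)) (hDHd.const_mul C1), INT.intX_const_mul, INT.intX_const_mul] at a1
    have a2 : intX (W1 g w ρ) = 0 := intX_closed hg (INT.IsKahler.isClosedForm hw) hρ
    rw [a2, mul_zero, add_zero] at a1
    exact a1
  have i2 : IX g (fun x => ρ x * (k * trX g h x ^ 2 - 2 * trX g h x)) ≤ intX (Qd g h ρ) := by
    have a1 := intX_ineq_weighted hg hh hric hk.le hHSC hρ hρ0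
    refine le_trans (le_of_eq ?_) a1
    refine INT.intX_congr fun e x hx => ?_
    have eT : trX g h x = ((g e (e x))⁻¹ * h e (e x)).trace.re := trX_eq hgH hh.isForm hx
    simp only [e.left_inv hx.2]
    rw [eT]
    ring
  have i3 : 3 * k / 4 * IX g (fun x => ρ x * trX g h x ^ 2) - 4 / k * IX g ρ ≤
      IX g (fun x => ρ x * (k * trX g h x ^ 2 - 2 * trX g h x)) := by
    have b1 : 3 * k / 4 * IX g (fun x => ρ x * trX g h x ^ 2) - 4 / k * IX g ρ =
        IX g (fun x => 3 * k / 4 * (ρ x * trX g h x ^ 2) - 4 / k * ρ x) := by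
      have s1 := IX_sub hgH (f := fun x => 3 * k / 4 * (ρ x * trX g h x ^ 2))
        (f' := fun x => 4 / k * ρ x) (continuous_const.mul hρT) (continuous_const.mul hρc)
      rw [← IX_const_mul, ← IX_const_mul, ← s1]
    rw [b1]
    refine IX_mono hgH ((continuous_const.mul hρT).sub (continuous_const.mul hρc))
      (hρc.mul ((continuous_const.mul (hTc.pow 2)).sub (continuous_const.mul hTc))) fun x => ?_
    have e1 : ρ x * (k * trX g h x ^ 2 - 2 * trX g h x) -
        (3 * k / 4 * (ρ x * trX g h x ^ 2) - 4 / k * ρ x) =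
        ρ x * ((k * trX g h x - 4) ^ 2 / (4 * k)) := by
      field_simp
      ring
    have e2 : 0 ≤ ρ x * ((k * trX g h x - 4) ^ 2 / (4 * k)) := by
      have := hρ0 x
      positivity
    linarith
  have i4 : IX g ρ ≤ IX g (fun x => ((B x)⁻¹) ^ (n - 1)) := by
    refine IX_mono hgH hρc (INT.SmoothFn.continuous (sm_inv_pow hB hB0 (n - 1))) fun x => ?_
    exact pow_le_pow_right₀ ((one_le_inv₀ (hB0 x)).2 (hB1 x)) (by omega)
  have i5 : IX g (fun x => ρ x * trX g w x ^ 2) ≤ Cw ^ 2 * IX g (fun x => ρ x * trX g h x ^ 2) := by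
    rw [← IX_const_mul]
    refine IX_mono hgH (hρc.mul (hTwc.pow 2)) (continuous_const.mul hρT) fun x => ?_
    have hx := at_chartAt (n := n) x
    set e := chartAt (Cm n) x
    have hG := hgH.posDef e x hx
    have eT : trX g h x = tr (g e (e x)) (h e (e x)) := trX_eq hgH hh.isForm hx
    have eTw : trX g w x = tr (g e (e x)) (w e (e x)) := trX_eq hgH hw.isForm hx
    have h1 : 0 ≤ tr (g e (e x)) (w e (e x)) := tr_nonneg hG (hw.posDef e x hx).posSemidef
    have h2 : tr (g e (e x)) (w e (e x)) ≤ Cw * tr (g e (e x)) (h e (e x)) := by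
      have := tr_nonneg hG (hCw e x hx)
      rw [tr_sub, tr_smul] at this
      linarith
    rw [eT, eTw]
    have h3 : tr (g e (e x)) (w e (e x)) ^ 2 ≤ Cw ^ 2 * tr (g e (e x)) (h e (e x)) ^ 2 := by
      rw [← mul_pow]
      exact pow_le_pow_left₀ h1 h2 2
    have := mul_le_mul_of_nonneg_left h3 (hρ0 x)
    linarith
  have n1 : 0 ≤ IX g (fun x => ((B x)⁻¹) ^ (n - 1)) := IX_nonneg hgH fun x => by
    have := hB0 x
    positivity
  have n2 : 0 ≤ intX DH := INT.intX_nonneg fun e x hx => by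
    have hG := hgH.posDef e x hx
    have hdet : 0 < (g e (e x)).det.re := (Complex.lt_def.1 hG.det_pos).1
    have hHfH : (Hf g B e (e x)).IsHermitian := by
      unfold Hf
      refine Matrix.IsHermitian.sub (cHess_isHermitian ((hB e x hx).of_le (by norm_cast))) ?_
      exact hG.isHermitian.smul (by simp only [IsSelfAdjoint, Complex.star_def, Complex.conj_ofReal])
    have h1 : 0 ≤ sqE g (Hf g B) e (e x) := pr_self_nonneg hG hHfH
    have h2 := hB0 (e.symm (e x))
    simp only [hDH]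
    positivity
  set I1 := IX g (fun x => ρ x * trX g h x ^ 2)
  set I0 := IX g (fun x => ((B x)⁻¹) ^ (n - 1))
  have j1 : k / 2 * I1 ≤ 4 / k * I0 + C1 * intX DH := by
    have : 4 / k * IX g ρ ≤ 4 / k * I0 := mul_le_mul_of_nonneg_left i4 (by positivity)
    linarith
  have j2 : I1 ≤ 2 / k * (4 / k * I0 + C1 * intX DH) := by
    have := mul_le_mul_of_nonneg_left j1 (show (0 : ℝ) ≤ 2 / k by positivity)
    have e1 : 2 / k * (k / 2 * I1) = I1 := by field_simp
    rwa [e1] at this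
  calc IX g (fun x => ρ x * trX g w x ^ 2) ≤ Cw ^ 2 * I1 := i5
    _ ≤ Cw ^ 2 * (2 / k * (4 / k * I0 + C1 * intX DH)) :=
        mul_le_mul_of_nonneg_left j2 (by positivity)
    _ ≤ (2 * Cw ^ 2 / k * (4 / k + C1) + 1) * (I0 + intX DH) := by
        have e1 : Cw ^ 2 * (2 / k * (4 / k * I0 + C1 * intX DH)) =
          2 * Cw ^ 2 / k * (4 / k * I0 + C1 * intX DH) := by ring
        rw [e1]
        have e2 : 4 / k * I0 + C1 * intX DH ≤ (4 / k + C1) * (I0 + intX DH) := by
          have h1 : 0 ≤ 4 / k := by positivity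
          nlinarith [mul_nonneg h1 n2, mul_nonneg hC10 n1]
        have e3 := mul_le_mul_of_nonneg_left e2 (show (0 : ℝ) ≤ 2 * Cw ^ 2 / k by positivity)
        have e4 : 0 ≤ I0 + intX DH := add_nonneg n1 n2
        linarith

end Vale.Agent.P272.K.AMP.DD

namespace Vale.Agent.P272.K.AMP

open INT (intX)

/-- **Steps 5 and 6** (output). -/
theorem dd_main {n : ℕ} {X : Type*} [TopologicalSpace X] [ChartedSpace (Cm n) X]
    [IsManifold 𝓘(ℂ, Cm n) ω X] [T2Space X] [CompactSpace X]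
    {w h : Chart n X → Cm n → Matrix (Fin n) (Fin n) ℂ} (hn : 2 ≤ n) (hw : IsKahler w)
    (hh : IsHermitian h) (hneg : NegHSC h) :
    ∃ C : ℝ, 0 < C ∧ ∀ g : Chart n X → Cm n → Matrix (Fin n) (Fin n) ℂ, IsKahler g →
      (∀ e x, At e x → (-cHess (fun z => Real.log (g e z).det.re) (e x) + g e (e x)).PosSemidef) →
      ∀ B : X → ℝ, SmoothFn (n := n) B → (∀ x, 0 < B x) → (∀ x, B x ≤ 1) →
      IX g (fun x => ((B x)⁻¹) ^ (n - 2) * (trX g w x) ^ 2) ≤
        C * (IX g (fun x => ((B x)⁻¹) ^ (n - 1)) +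
          intX (fun (e : Chart n X) z => ((B (e.symm z))⁻¹) ^ n * sqE g (Hf g B) e z *
            (g e z).det.re)) :=
  DD.main hn hw hh hneg

end Vale.Agent.P272.K.AMP
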