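import Vale.Agent.P272.K.C2.PosLin

/-!
# Pointwise linear algebra for Steps 5 and 6
-/

open scoped ComplexOrder

set_option linter.all false

noncomputable section

namespace Vale.Agent.P272.K.AMP.DD

open Vale.Agent.P272.K

variable {n : ℕ} {G A C D H : Matrix (Fin n) (Fin n) ℂ}

/-- the pairing `<A, C>_G` -/
def pr (G A C : Matrix (Fin n) (Fin n) ℂ) : ℝ := (G⁻¹ * A * (G⁻¹ * C)).trace.re

/-- `tr_G A` -/
def tr (G A : Matrix (Fin n) (Fin n) ℂ) : ℝ := (G⁻¹ * A).trace.re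

lemma pr_comm : pr G A C = pr G C A := by
  unfold pr
  rw [Matrix.trace_mul_comm]

lemma pr_add_right (C D : Matrix (Fin n) (Fin n) ℂ) : pr G A (C + D) = pr G A C + pr G A D := by
  unfold pr
  rw [Matrix.mul_add, Matrix.mul_add, Matrix.trace_add, Complex.add_re]

lemma pr_sub_right (C D : Matrix (Fin n) (Fin n) ℂ) : pr G A (C - D) = pr G A C - pr G A D := by
  unfold pr
  rw [Matrix.mul_sub, Matrix.mul_sub, Matrix.trace_sub, Complex.sub_re]

lemma pr_smul_right (c : ℝ) (C : Matrix (Fin n) (Fin n) ℂ) :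
    pr G A ((c : ℂ) • C) = c * pr G A C := by
  unfold pr
  rw [Matrix.mul_smul, Matrix.mul_smul, Matrix.trace_smul, smul_eq_mul, Complex.re_ofReal_mul]

lemma pr_sub_left (C D : Matrix (Fin n) (Fin n) ℂ) : pr G (C - D) A = pr G C A - pr G D A := by
  rw [pr_comm, pr_sub_right, pr_comm (A := A), pr_comm (A := A) (C := D)]

lemma pr_add_left (C D : Matrix (Fin n) (Fin n) ℂ) : pr G (C + D) A = pr G C A + pr G D A := by
  rw [pr_comm, pr_add_right, pr_comm (A := A), pr_comm (A := A) (C := D)]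

lemma pr_smul_left (c : ℝ) (C : Matrix (Fin n) (Fin n) ℂ) :
    pr G ((c : ℂ) • C) A = c * pr G C A := by
  rw [pr_comm, pr_smul_right, pr_comm]

lemma tr_add (C D : Matrix (Fin n) (Fin n) ℂ) : tr G (C + D) = tr G C + tr G D := by
  unfold tr
  rw [Matrix.mul_add, Matrix.trace_add, Complex.add_re]

lemma tr_sub (C D : Matrix (Fin n) (Fin n) ℂ) : tr G (C - D) = tr G C - tr G D := by
  unfold tr
  rw [Matrix.mul_sub, Matrix.trace_sub, Complex.sub_re]

lemma tr_smul (c : ℝ) (C : Matrix (Fin n) (Fin n) ℂ) : tr G ((c : ℂ) • C) = c * tr G C := by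
  unfold tr
  rw [Matrix.mul_smul, Matrix.trace_smul, smul_eq_mul, Complex.re_ofReal_mul]

lemma unitG (hG : G.PosDef) : IsUnit G.det := isUnit_iff_ne_zero.2 hG.det_pos.ne'

lemma pr_G_left (hG : G.PosDef) : pr G G C = tr G C := by
  unfold pr tr
  rw [Matrix.nonsing_inv_mul _ (unitG hG), Matrix.one_mul]

lemma pr_G_right (hG : G.PosDef) : pr G C G = tr G C := by rw [pr_comm, pr_G_left hG]

lemma tr_G (hG : G.PosDef) : tr G G = n := by
  unfold tr
  rw [Matrix.nonsing_inv_mul _ (unitG hG), Matrix.trace_one]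
  simp

lemma tr_nonneg (hG : G.PosDef) (hA : A.PosSemidef) : 0 ≤ tr G A :=
  (Complex.le_def.1 (C2.trace_mul_nonneg hG.inv.posSemidef hA)).1

/-- `<A, A> ≥ 0` for Hermitian `A` -/
lemma pr_self_nonneg (hG : G.PosDef) (hA : A.IsHermitian) : 0 ≤ pr G A A := by
  obtain ⟨P, hP⟩ := C2.exists_factor hG.inv.posSemidef
  have h1 : (G⁻¹ * A * (G⁻¹ * A)).trace =
      ((P * A * P.conjTranspose).conjTranspose * (P * A * P.conjTranspose)).trace := by
    have e1 : (P * A * P.conjTranspose).conjTranspose = P * A * P.conjTranspose := by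
      rw [Matrix.conjTranspose_mul, Matrix.conjTranspose_mul, Matrix.conjTranspose_conjTranspose,
        hA.eq, Matrix.mul_assoc]
    rw [e1, hP]
    rw [show P.conjTranspose * P * A * (P.conjTranspose * P * A) =
      P.conjTranspose * ((P * A * P.conjTranspose) * (P * A)) by simp only [Matrix.mul_assoc],
      Matrix.trace_mul_comm]
    congr 1
    simp only [Matrix.mul_assoc]
  unfold pr
  rw [h1]
  exact (Complex.le_def.1 (Matrix.posSemidef_conjTranspose_mul_self _).trace_nonneg).1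

/-- `<A, C> ≥ 0` for positive semidefinite `A`, `C` -/
lemma pr_nonneg (hG : G.PosDef) (hA : A.PosSemidef) (hC : C.PosSemidef) : 0 ≤ pr G A C := by
  have hP : (G⁻¹ * A * G⁻¹).PosSemidef := by
    have := hA.mul_mul_conjTranspose_same G⁻¹
    rwa [hG.inv.isHermitian.eq] at this
  have := (Complex.le_def.1 (C2.trace_mul_nonneg hP hC)).1
  unfold pr
  rw [← Matrix.mul_assoc]
  exact this

lemma trace_real (hG : G.PosDef) (hA : A.IsHermitian) :
    (G⁻¹ * A).trace = ((tr G A : ℝ) : ℂ) := by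
  have h : star (G⁻¹ * A).trace = (G⁻¹ * A).trace := by
    rw [← Matrix.trace_conjTranspose, Matrix.conjTranspose_mul, hA.eq, hG.inv.isHermitian.eq,
      Matrix.trace_mul_comm]
  have h2 : (G⁻¹ * A).trace.im = 0 := by
    have := congrArg Complex.im h
    simp only [Complex.star_def, Complex.conj_im] at this
    linarith
  apply Complex.ext
  · simp [tr]
  · simp [h2]

/-- `<A, A> ≤ (tr A)²` for positive semidefinite `A` -/
lemma pr_le_tr_sq (hG : G.PosDef) (hA : A.PosSemidef) : pr G A A ≤ tr G A ^ 2 := by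
  have h1 := C2.trace_smul_sub_posSemidef hG hA
  rw [trace_real hG hA.isHermitian] at h1
  have h2 := pr_nonneg hG hA h1
  rw [pr_sub_right, pr_smul_right, pr_G_right hG] at h2
  nlinarith

/-- Young's inequality for the pairing -/
lemma young_pr (hG : G.PosDef) (hA : A.PosSemidef) (hH : H.IsHermitian) {ε r : ℝ} (hε : 0 < ε)
    (s : ℝ) (hs : s ^ 2 = 1) :
    2 * s * r * pr G A H ≤ ε * tr G A ^ 2 + ε⁻¹ * r ^ 2 * pr G H H := by
  have h1 : ((ε : ℂ) • A - ((s * r : ℝ) : ℂ) • H).IsHermitian := by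
    refine Matrix.IsHermitian.sub ?_ ?_
    · exact hA.isHermitian.smul (by simp [IsSelfAdjoint, Complex.conj_ofReal])
    · exact hH.smul (by simp only [IsSelfAdjoint, Complex.star_def, Complex.conj_ofReal])
  have h2 := pr_self_nonneg hG h1
  have hc : pr G H A = pr G A H := pr_comm
  simp only [pr_sub_right, pr_sub_left, pr_smul_right, pr_smul_left, hc] at h2
  have h3 := pr_le_tr_sq hG hA
  have h4 : 0 ≤ ε⁻¹ * (ε * (ε * pr G A A) - s * r * (ε * pr G A H) * 2 + (s * r) ^ 2 * pr G H H) := by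
    refine mul_nonneg (inv_nonneg.2 hε.le) ?_
    linarith
  have h5 : ε⁻¹ * (ε * (ε * pr G A A) - s * r * (ε * pr G A H) * 2 + (s * r) ^ 2 * pr G H H) =
      ε * pr G A A - 2 * s * r * pr G A H + ε⁻¹ * r ^ 2 * pr G H H := by
    rw [mul_pow, hs]
    field_simp
  rw [h5] at h4
  nlinarith [mul_le_mul_of_nonneg_left h3 hε.le]

/-- Young's inequality for the trace -/
lemma young_tr (hG : G.PosDef) (hH : H.IsHermitian) {ε r : ℝ} (hε : 0 < ε) (T : ℝ) :
    -(2 * r * (T * tr G H)) ≤ ε * n * T ^ 2 + ε⁻¹ * r ^ 2 * pr G H H := by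
  have h1 : (((ε * T : ℝ) : ℂ) • G + ((r : ℝ) : ℂ) • H).IsHermitian := by
    refine Matrix.IsHermitian.add ?_ ?_
    · exact hG.isHermitian.smul (by simp only [IsSelfAdjoint, Complex.star_def, Complex.conj_ofReal])
    · exact hH.smul (by simp only [IsSelfAdjoint, Complex.star_def, Complex.conj_ofReal])
  have h2 := pr_self_nonneg hG h1
  simp only [pr_add_right, pr_add_left, pr_smul_right, pr_smul_left, pr_G_left hG, pr_G_right hG,
    tr_add, tr_smul, tr_G hG] at h2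
  have h4 : 0 ≤ ε⁻¹ * (ε * T * (ε * T * n) + 2 * (r * (ε * T * tr G H)) + r ^ 2 * pr G H H) := by
    refine mul_nonneg (inv_nonneg.2 hε.le) ?_
    linarith
  have h5 : ε⁻¹ * (ε * T * (ε * T * n) + 2 * (r * (ε * T * tr G H)) + r ^ 2 * pr G H H) =
      ε * n * T ^ 2 + 2 * r * (T * tr G H) + ε⁻¹ * r ^ 2 * pr G H H := by
    field_simp
  rw [h5] at h4
  linarith

/-- **The pointwise estimate.** `R = i∂∂̄ρ`, `ρ = r^{n-2}`, `r = 1/B`, `Q = |∂B|²/B`, `D = ∂B ⊗ ∂̄B`,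
`H = i∂∂̄B - Q g`, `K = n - 2`. -/
theorem point {k Cw Ch r q ρ ρ1 ρ2 : ℝ} {h w : Matrix (Fin n) (Fin n) ℂ} (hn : 2 ≤ n)
    (hG : G.PosDef) (hh : h.PosSemidef) (hw : w.PosSemidef) (hD : D.PosSemidef)
    (hH : H.IsHermitian) (hCh0 : 0 ≤ Ch) (hCw0 : 0 ≤ Cw)
    (hCh : ((Ch : ℂ) • w - h).PosSemidef) (hCw : ((Cw : ℂ) • h - w).PosSemidef)
    (hr : 0 < r) (hρ : 0 ≤ ρ) (hρ1 : ρ1 = ρ * r) (hρ2 : ρ2 = ρ * r ^ 2)
    (hq : tr G D = q / r) (hq0 : 0 ≤ q) {ε : ℝ} (hε : 0 < ε)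
    {R : Matrix (Fin n) (Fin n) ℂ}
    (hR : R = ((-(((n : ℝ) - 2) * ρ1) : ℝ) : ℂ) • (H + (q : ℂ) • G) +
      (((((n : ℝ) - 2) * ((n : ℝ) - 1) * ρ2) : ℝ) : ℂ) • D) :
    (tr G h * tr G R + pr G h R) + Ch * (tr G w * tr G R - pr G w R) ≤
      (((n : ℝ) - 2) / 2) * (ε * (n + 1) * (1 + Ch * Cw ^ 2) * (ρ * tr G h ^ 2) +
        (2 + 2 * Ch) * ε⁻¹ * (ρ2 * pr G H H)) := by
  have hn2 : (0 : ℝ) ≤ (n : ℝ) - 2 := by
    have : (2 : ℝ) ≤ n := by exact_mod_cast hn
    linarith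
  have hTh : 0 ≤ tr G h := tr_nonneg hG hh
  have hTw : 0 ≤ tr G w := tr_nonneg hG hw
  have hTw' : tr G w ≤ Cw * tr G h := by
    have := tr_nonneg hG hCw
    rw [tr_sub, tr_smul] at this
    linarith
  have hD' : pr G h D ≤ Ch * pr G w D := by
    have := pr_nonneg hG hCh hD
    rw [pr_sub_left, pr_smul_left] at this
    linarith
  have tR : tr G R = -(((n : ℝ) - 2) * ρ1) * (tr G H + q * n) +
      (((n : ℝ) - 2) * ((n : ℝ) - 1) * ρ2) * (q / r) := by
    rw [hR, tr_add, tr_smul, tr_smul, tr_add, tr_smul, tr_G hG, hq]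
  have pR : ∀ A, pr G A R = -(((n : ℝ) - 2) * ρ1) * (pr G A H + q * tr G A) +
      (((n : ℝ) - 2) * ((n : ℝ) - 1) * ρ2) * pr G A D := by
    intro A
    rw [hR, pr_add_right, pr_smul_right, pr_smul_right, pr_add_right, pr_smul_right,
      pr_G_right hG]
  have tR' : tr G R = -(((n : ℝ) - 2) * ρ1) * (tr G H + q) := by
    rw [tR, hρ1, hρ2]
    field_simp
    ring
  rw [tR', pR h, pR w]
  -- the four Young inequalities
  have y1 := young_tr (r := r) hG hH hε (tr G h)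
  have y2 := young_pr (r := r) hG hh hH hε (-1) (by norm_num)
  have y3 := young_tr (r := r) hG hH hε (tr G w)
  have y4 := young_pr (r := r) hG hw hH hε 1 (by norm_num)
  have hpH : 0 ≤ pr G H H := pr_self_nonneg hG hH
  have hTw2 : tr G w ^ 2 ≤ Cw ^ 2 * tr G h ^ 2 := by
    rw [← mul_pow]
    exact pow_le_pow_left₀ hTw hTw' 2
  -- the sum
  have s1 : 2 * r * (-(tr G h * tr G H) - pr G h H) + Ch * (2 * r * (-(tr G w * tr G H) + pr G w H)) ≤
      ε * (n + 1) * (1 + Ch * Cw ^ 2) * tr G h ^ 2 + (2 + 2 * Ch) * ε⁻¹ * (r ^ 2 * pr G H H) := by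
    have a1 : Ch * (2 * r * (-(tr G w * tr G H) + pr G w H)) ≤
        Ch * (ε * (n + 1) * tr G w ^ 2 + 2 * ε⁻¹ * (r ^ 2 * pr G H H)) := by
      refine mul_le_mul_of_nonneg_left ?_ hCh0
      linarith
    have a2 : ε * (n + 1) * tr G w ^ 2 ≤ ε * (n + 1) * (Cw ^ 2 * tr G h ^ 2) :=
      mul_le_mul_of_nonneg_left hTw2 (by positivity)
    have a3 := mul_le_mul_of_nonneg_left a2 hCh0
    linarith
  have s2 := mul_le_mul_of_nonneg_left s1 (mul_nonneg hn2 hρ)
  have e1 : (tr G h * (-(((n : ℝ) - 2) * ρ1) * (tr G H + q)) +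
        (-(((n : ℝ) - 2) * ρ1) * (pr G h H + q * tr G h) +
          ((n : ℝ) - 2) * ((n : ℝ) - 1) * ρ2 * pr G h D)) +
      Ch * (tr G w * (-(((n : ℝ) - 2) * ρ1) * (tr G H + q)) -
        (-(((n : ℝ) - 2) * ρ1) * (pr G w H + q * tr G w) +
          ((n : ℝ) - 2) * ((n : ℝ) - 1) * ρ2 * pr G w D)) =
      (1 / 2) * ((((n : ℝ) - 2) * ρ) * (2 * r * (-(tr G h * tr G H) - pr G h H) +
        Ch * (2 * r * (-(tr G w * tr G H) + pr G w H)))) -
      2 * (((n : ℝ) - 2) * ρ1 * (q * tr G h)) -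
      ((n : ℝ) - 2) * ((n : ℝ) - 1) * ρ2 * (Ch * pr G w D - pr G h D) := by
    rw [hρ1, hρ2]
    ring
  rw [e1]
  have t1 : 0 ≤ ((n : ℝ) - 2) * ρ1 * (q * tr G h) := by
    rw [hρ1]; positivity
  have t2 : 0 ≤ ((n : ℝ) - 2) * ((n : ℝ) - 1) * ρ2 * (Ch * pr G w D - pr G h D) := by
    rw [hρ2]
    have : 0 ≤ Ch * pr G w D - pr G h D := by linarith
    have h1 : (0 : ℝ) ≤ (n : ℝ) - 1 := by linarith
    positivity
  have e2 : (((n : ℝ) - 2) / 2) * (ε * (n + 1) * (1 + Ch * Cw ^ 2) * (ρ * tr G h ^ 2) +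
        (2 + 2 * Ch) * ε⁻¹ * (ρ2 * pr G H H)) =
      (1 / 2) * (((n : ℝ) - 2) * ρ * (ε * (n + 1) * (1 + Ch * Cw ^ 2) * tr G h ^ 2 +
        (2 + 2 * Ch) * ε⁻¹ * (r ^ 2 * pr G H H))) := by
    rw [hρ2]; ring
  rw [e2]
  linarith

end Vale.Agent.P272.K.AMP.DD
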